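import Vale.Agent.P022.H447.L3.Wv
import Vale.Agent.P022.H542.L3.Act
import Vale.Agent.P022.H20.GalDef

/-! # P022-L3, chapter G: the Galois representation on the classes modulo `N`-th powers -/

set_option autoImplicit false

noncomputable section

open HahnSeries

namespace Vale.Agent.P022.H447.L3

open Vale.Agent.P022.H542.L3

variable {B : ℕ} {G : Geo B}

/-- the action of `Aut(ℂ/ℚ)` through `Geo.act` -/
@[reducible] def mulAct (G : Geo B) [NeZero B] (N : ℕ) : MulAction (ℂ ≃ₐ[ℚ] ℂ) (G.V N) where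
  smul σ v := G.act N (σ : ℂ ≃+* ℂ) v
  one_smul v := by
    change G.act N ((1 : ℂ ≃ₐ[ℚ] ℂ) : ℂ ≃+* ℂ) v = v
    have h : ((1 : ℂ ≃ₐ[ℚ] ℂ) : ℂ ≃+* ℂ) = 1 := rfl
    rw [h, map_one]
    rfl
  mul_smul σ τ v := by
    change G.act N ((σ * τ : ℂ ≃ₐ[ℚ] ℂ) : ℂ ≃+* ℂ) v = _
    have h : ((σ * τ : ℂ ≃ₐ[ℚ] ℂ) : ℂ ≃+* ℂ) = (σ : ℂ ≃+* ℂ) * (τ : ℂ ≃+* ℂ) := rfl
    rw [h, map_mul]
    rfl

/-- **[RHO]** the Galois group acts on `V N` -/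
theorem rho [NeZero B] {N : ℕ} (hN : 0 < N)
    (hfin : ∀ f0 : G.Kˣ, f0 ∈ G.U N → ∀ m : ℕ,
      FiniteDimensional ℂ (Mm G N m (f0 : G.K) f0.ne_zero))
    (hne : ∀ f0 : G.Kˣ, f0 ∈ G.U N → ∃ m0 : ℕ, ∀ m : ℕ, m0 ≤ m →
      ∃ x ∈ Mm G N m (f0 : G.K) f0.ne_zero, x ≠ 0)
    [Finite (G.V N)] (i : Qb →ₐ[ℚ] ℂ) :
    ∃ ρ : GQ →* MulAut (G.V N),
      (∀ (σ : ℂ ≃ₐ[ℚ] ℂ) (τ : GQ), (∀ x, σ (i x) = i (τ x)) →
        ∀ v, ρ τ v = G.act N (σ : ℂ ≃+* ℂ) v) ∧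
      IsOpen (ρ.ker : Set GQ) ∧
      ∀ v : G.V N, ∃ f : G.U N, QuotientGroup.mk f = v ∧
        (∃ y : LS, y ^ N = sb N hN (G.e ((f : G.Kˣ) : G.K)) ∧ ∀ j, y.coeff j ∈ i.range) ∧
        ∃ g : ℤ → Qb, ∀ j, i (g j) = (G.e ((f : G.Kˣ) : G.K)).coeff j := by
  let : MulAction (ℂ ≃ₐ[ℚ] ℂ) (G.V N) := mulAct G N
  obtain ⟨ρ0, h1, h2, h3⟩ := wv (G := G) (NeZero.ne B) hN hfin hne G.semi (fun σ f =>
    ⟨⟨G.su (σ : ℂ ≃+* ℂ) f, G.su_mem_U _ f.2⟩, G.e_s _ _, rfl⟩) i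
  have h4 : ∀ (σ : ℂ ≃ₐ[ℚ] ℂ) (τ : GQ), (∀ x, σ (i x) = i (τ x)) →
      ∀ v, ρ0 τ v = G.act N (σ : ℂ ≃+* ℂ) v := fun σ τ h v => h1 σ τ h v
  choose ext hext using fun τ : GQ => H694.exists_lift i τ
  let ρ : GQ →* MulAut (G.V N) :=
    { toFun := fun τ =>
        { toFun := ρ0 τ
          invFun := (ρ0 τ).symm
          left_inv := (ρ0 τ).left_inv
          right_inv := (ρ0 τ).right_inv
          map_mul' := fun v w => by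
            rw [h4 _ τ (hext τ), h4 _ τ (hext τ), h4 _ τ (hext τ), map_mul] }
      map_one' := by
        ext v
        change ρ0 1 v = v
        rw [map_one]
        rfl
      map_mul' := fun τ τ' => by
        ext v
        change ρ0 (τ * τ') v = ρ0 τ (ρ0 τ' v)
        rw [map_mul]
        rfl }
  refine ⟨ρ, fun σ τ h v => h4 σ τ h v, ?_, h3⟩
  have h5 : ρ.ker = ρ0.ker := by
    ext τ
    rw [MonoidHom.mem_ker, MonoidHom.mem_ker]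
    constructor
    · intro h
      ext v
      exact congrArg (fun e : MulAut (G.V N) => e v) h
    · intro h
      ext v
      change ρ0 τ v = v
      rw [h]
      rfl
  rw [h5]
  exact h2

end Vale.Agent.P022.H447.L3
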