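import Vale.Agent.P022.H916.L3.AbsFin
import Vale.Agent.P022.H916.L3.Cusp
import Vale.Agent.P022.H452.L3.FD

/-! # P022-L3, chapter G: the spaces `Mm` are finite-dimensional and not zero (plug of [FD]) -/

set_option autoImplicit false

noncomputable section

open HahnSeries

namespace Vale.Agent.P022.H447.L3

open Vale.Agent.P022.H542.L3

variable {B : ℕ} (G : Geo B)

theorem mm_eq (N m : ℕ) (f0 : G.Kˣ) : Mm G N m (f0 : G.K) f0.ne_zero = G.MM N f0 m := by
  ext x
  rw [mem_Mm, Geo.mem_MM]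
  by_cases hx : x = 0
  · simp [hx]
  · rw [or_iff_right hx, or_iff_right hx]
    have h : ∀ θ : G.K →ₐ[ℂ] LS, (θ ((f0 : G.K) * x ^ N)).order =
        (N : ℤ) * (θ x).order + (θ (f0 : G.K)).order := fun θ =>
      order_mul_pow θ N f0.ne_zero hx
    unfold Bd
    constructor
    · rintro ⟨h1, h2⟩
      refine ⟨fun a ha θ hθ => ?_, fun θ e he => ?_⟩
      · rw [← h]; exact h1 a ha θ hθ
      · rw [← h]; exact h2 θ e he
    · rintro ⟨h1, h2⟩
      refine ⟨fun a ha θ hθ => ?_, fun θ e he => ?_⟩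
      · rw [h]; exact h1 a ha θ hθ
      · rw [h]; exact h2 θ e he

/-- **[FD]** -/
theorem fd : H916.L3.FdStmt := by
  intro G N hN
  refine ⟨fun f0 _ m => ?_, fun f0 _ => ?_⟩
  · rw [mm_eq]
    exact G.finite_MM (H916.L3.cuspEx G) N hN f0 m
  · obtain ⟨m0, h⟩ := G.exists_MM_ne N hN f0
    refine ⟨m0, fun m hm => ?_⟩
    rw [mm_eq]
    exact h m hm

end Vale.Agent.P022.H447.L3
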