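import Vale.Agent.P022.H447.L3.WvDefs
import Vale.Agent.P022.H694.Gal
import Vale.Agent.P022.H964.L3.RootLS

/-! # P022-L3, row [WV]: the classes modulo `N`-th powers have algebraic expansions, and the
automorphisms of `ℂ` act on them through a number field -/

set_option autoImplicit false

noncomputable section

open HahnSeries

namespace Vale.Agent.P022.H447.L3

open Vale.Agent.P022.H542.L3

variable {B : ℕ} (G : Geo B)

theorem e_inj {x y : G.K} (h : G.e x = G.e y) : x = y := (G.e : G.K →+* LS).injective h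

theorem e_C (c : ℂ) : G.e (algebraMap ℂ G.K c) = C c := by
  rw [AlgHom.commutes, algC]

/-- the expansion of `p` is rational -/
theorem cm_ep (hB : B ≠ 0) (σ : ℂ ≃+* ℂ) : cm σ (G.e G.p) = G.e G.p := by
  obtain ⟨m, hm⟩ := G.int G.p G.pR
  ext n
  obtain ⟨z, hz⟩ := hm n
  rw [coeff_cm]
  have h1 : ((B : ℂ)) ^ m ≠ 0 := pow_ne_zero _ (by exact_mod_cast hB)
  have h2 := congrArg σ hz
  rw [map_mul, map_pow, map_natCast, map_intCast, ← hz] at h2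
  exact mul_left_cancel₀ h1 h2

theorem semi_p (hB : B ≠ 0) (σ : ℂ ≃+* ℂ) (φ : G.K ≃+* G.K)
    (hφ : ∀ x, G.e (φ x) = cm σ (G.e x)) : φ G.p = G.p :=
  e_inj G (by rw [hφ, cm_ep G hB])

theorem semi_C (σ : ℂ ≃+* ℂ) (φ : G.K ≃+* G.K)
    (hφ : ∀ x, G.e (φ x) = cm σ (G.e x)) (c : ℂ) :
    φ (algebraMap ℂ G.K c) = algebraMap ℂ G.K (σ c) :=
  e_inj G (by rw [hφ, e_C, e_C, cm_C])

/-- the twisted embedding `σ⁻¹ θ φ` -/
def tw (σ : ℂ ≃+* ℂ) (φ : G.K ≃+* G.K) (hφ : ∀ x, G.e (φ x) = cm σ (G.e x))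
    (θ : G.K →ₐ[ℂ] LS) : G.K →ₐ[ℂ] LS where
  toRingHom := ((cm σ).symm : LS →+* LS).comp ((θ : G.K →+* LS).comp (φ : G.K →+* G.K))
  commutes' c := by
    change (cm σ).symm (θ (φ (algebraMap ℂ G.K c))) = algebraMap ℂ LS c
    rw [semi_C G σ φ hφ, AlgHom.commutes, algC, algC, RingEquiv.symm_apply_eq, cm_C]

theorem cm_tw (σ : ℂ ≃+* ℂ) (φ : G.K ≃+* G.K) (hφ : ∀ x, G.e (φ x) = cm σ (G.e x))
    (θ : G.K →ₐ[ℂ] LS) (x : G.K) : cm σ (tw G σ φ hφ θ x) = θ (φ x) := by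
  change cm σ ((cm σ).symm (θ (φ x))) = _
  exact (cm σ).apply_symm_apply _

theorem order_tw (σ : ℂ ≃+* ℂ) (φ : G.K ≃+* G.K) (hφ : ∀ x, G.e (φ x) = cm σ (G.e x))
    (θ : G.K →ₐ[ℂ] LS) (x : G.K) : (θ (φ x)).order = (tw G σ φ hφ θ x).order := by
  rw [← cm_tw G σ φ hφ, order_cm]

theorem bd_semi (hB : B ≠ 0) (σ : ℂ ≃+* ℂ) (φ : G.K ≃+* G.K)
    (hφ : ∀ x, G.e (φ x) = cm σ (G.e x)) {m : ℕ} {f : G.K} (h : Bd G m f) : Bd G m (φ f) := by
  have hinj : ∀ x y : LS, cm σ x = cm σ y → x = y := fun x y h => (cm σ).injective h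
  refine ⟨fun a ha θ hθ => ?_, fun θ e he => ?_⟩
  · rw [order_tw G σ φ hφ]
    refine h.1 (σ.symm a) (fun s hs h1 => ha s hs ?_) _ (hinj _ _ ?_)
    · rw [RingEquiv.symm_apply_eq] at h1
      rw [h1, map_ratCast]
    · rw [cm_tw, semi_p G hB σ φ hφ, map_add, cm_C, cm_single, map_one,
        RingEquiv.apply_symm_apply]
      exact hθ
  · rw [order_tw G σ φ hφ]
    refine h.2 _ e ⟨he.1, ?_⟩
    rcases he.2 with ⟨s, hs, h1⟩ | h1
    · refine Or.inl ⟨s, hs, hinj _ _ ?_⟩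
      rw [cm_tw, semi_p G hB σ φ hφ, map_add, cm_C, cm_single, map_one, map_ratCast]
      exact h1
    · refine Or.inr (hinj _ _ ?_)
      rw [cm_tw, semi_p G hB σ φ hφ, cm_single, map_one]
      exact h1

/-! ### the spaces -/

theorem dvd_order_sb (N : ℕ) (hN : 0 < N) (x : LS) : (N : ℤ) ∣ (sb N hN x).order := by
  by_cases hx : x = 0
  · subst hx; simp
  by_contra h
  have h1 := coeff_sb_of_not_dvd N hN x _ h
  exact ((map_ne_zero (sb N hN)).2 hx) (HahnSeries.coeff_order_eq_zero.1 h1)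

variable {G}

section root

variable {N : ℕ} (hN : 0 < N) (f0 : G.Kˣ)

/-- a root of the expansion -/
def y0 : LS :=
  (Vale.Agent.P022.H964.L3.exists_root N hN (sb N hN (G.e (f0 : G.K))) (dvd_order_sb N hN _)).choose

theorem y0_pow : y0 hN f0 ^ N = sb N hN (G.e (f0 : G.K)) :=
  (Vale.Agent.P022.H964.L3.exists_root N hN (sb N hN (G.e (f0 : G.K)))
    (dvd_order_sb N hN _)).choose_spec

theorem y0_ne : y0 hN f0 ≠ 0 := by
  intro h
  have h1 := y0_pow hN f0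
  rw [h, zero_pow hN.ne'] at h1
  exact ((map_ne_zero (sb N hN)).2 ((map_ne_zero G.e).2 f0.ne_zero)) h1.symm

/-- `x ↦ y0 (e x)(t^N)` -/
def LL : G.K →ₗ[ℂ] (ℤ → ℂ) where
  toFun x := (y0 hN f0 * sb N hN (G.e x)).coeff
  map_add' x y := by
    rw [map_add, map_add, mul_add, HahnSeries.coeff_add']
  map_smul' c x := by
    have h1 : G.e (c • x) = C c * G.e x := by
      rw [Algebra.smul_def, map_mul, e_C]
    rw [h1, map_mul, sb_C, mul_left_comm, HahnSeries.C_mul_eq_smul]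
    rfl

theorem LL_apply (x : G.K) : LL hN f0 x = (y0 hN f0 * sb N hN (G.e x)).coeff := rfl

/-- the space attached to a representative -/
def Wr (m : ℕ) : Submodule ℂ (ℤ → ℂ) := (Mm G N m (f0 : G.K) f0.ne_zero).map (LL hN f0)

theorem root_one {z : LS} (h : z ^ N = 1) (hN : 0 < N) : ∃ c : ℂ, z = C c := by
  have h1 := Complex.isPrimitiveRoot_exp N hN.ne'
  have h2 : IsPrimitiveRoot (C (Complex.exp (2 * Real.pi * Complex.I / N)) : LS) N :=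
    h1.map_of_injective (f := (C : ℂ →+* LS)) HahnSeries.C_injective
  have : NeZero N := ⟨hN.ne'⟩
  obtain ⟨i, -, hi⟩ := h2.eq_pow_of_pow_eq_one h
  exact ⟨_, by rw [← hi, ← map_pow]⟩

theorem mem_Wr {m : ℕ} {f : ℤ → ℂ} : f ∈ Wr hN f0 m ↔ ∃ y : LS, y.coeff = f ∧ (y = 0 ∨
    ∃ x : G.Kˣ, y ^ N = sb N hN (G.e ((f0 * x ^ N : G.Kˣ) : G.K)) ∧
      Bd G m ((f0 * x ^ N : G.Kˣ) : G.K)) := by
  constructor
  · rintro ⟨x, hx, rfl⟩
    refine ⟨y0 hN f0 * sb N hN (G.e x), rfl, ?_⟩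
    by_cases hx0 : x = 0
    · left
      rw [hx0, map_zero, map_zero, mul_zero]
    · right
      have hx' := (mem_Mm G).1 hx |>.resolve_left hx0
      refine ⟨Units.mk0 x hx0, ?_, ?_⟩
      · rw [mul_pow, y0_pow, ← map_pow, ← map_pow, ← map_mul, ← map_mul]
        simp
      · simpa using hx'
  · rintro ⟨y, rfl, rfl | ⟨x, hy, hb⟩⟩
    · exact Submodule.zero_mem _
    · have h1 : sb N hN (G.e (x : G.K)) ≠ 0 :=
        (map_ne_zero (sb N hN)).2 ((map_ne_zero G.e).2 x.ne_zero)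
      have h2 : y0 hN f0 * sb N hN (G.e (x : G.K)) ≠ 0 := mul_ne_zero (y0_ne hN f0) h1
      have h3 : (y / (y0 hN f0 * sb N hN (G.e (x : G.K)))) ^ N = 1 := by
        rw [div_pow, hy, mul_pow, y0_pow, ← map_pow, ← map_pow, ← map_mul, ← map_mul]
        have h4 : sb N hN (G.e ((f0 * x ^ N : G.Kˣ) : G.K)) ≠ 0 :=
          (map_ne_zero (sb N hN)).2 ((map_ne_zero G.e).2 (Units.ne_zero _))
        rw [Units.val_mul, Units.val_pow_eq_pow_val] at h4 ⊢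
        exact div_self h4
      obtain ⟨c, hc⟩ := root_one h3 hN
      rw [div_eq_iff h2] at hc
      have hmem : (x : G.K) ∈ Mm G N m (f0 : G.K) f0.ne_zero := by
        refine (mem_Mm G).2 (Or.inr ?_)
        simpa using hb
      refine ⟨c • (x : G.K), Submodule.smul_mem _ c hmem, ?_⟩
      rw [map_smul, LL_apply, hc, HahnSeries.C_mul_eq_smul]
      rfl

theorem Wr_finite (m : ℕ) (h : FiniteDimensional ℂ (Mm G N m (f0 : G.K) f0.ne_zero)) :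
    FiniteDimensional ℂ (Wr hN f0 m) := by
  unfold Wr
  infer_instance

theorem Wr_ne {m : ℕ} (h : ∃ x ∈ Mm G N m (f0 : G.K) f0.ne_zero, x ≠ 0) :
    ∃ f ∈ Wr hN f0 m, f ≠ 0 := by
  obtain ⟨x, hx, hx0⟩ := h
  refine ⟨LL hN f0 x, ⟨x, hx, rfl⟩, fun h0 => ?_⟩
  rw [LL_apply] at h0
  have h1 : y0 hN f0 * sb N hN (G.e x) = 0 := by
    ext n
    exact congrFun h0 n
  exact (mul_ne_zero (y0_ne hN f0) ((map_ne_zero (sb N hN)).2 ((map_ne_zero G.e).2 hx0))) h1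

end root

/-! ### algebraic coefficients -/

section alg

variable {M : Type} [Field M] [Algebra ℚ M] (i : M →ₐ[ℚ] ℂ)

theorem alg_mul {x y : LS} (hx : ∀ j, x.coeff j ∈ i.range) (hy : ∀ j, y.coeff j ∈ i.range) (j : ℤ) :
    (x * y).coeff j ∈ i.range := by
  rw [HahnSeries.coeff_mul]
  exact sum_mem fun a _ => mul_mem (hx _) (hy _)

theorem alg_pow {x : LS} (hx : ∀ j, x.coeff j ∈ i.range) (n : ℕ) :
    ∀ j, (x ^ n).coeff j ∈ i.range := by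
  induction n with
  | zero =>
    intro j
    rw [pow_zero, HahnSeries.coeff_one]
    split_ifs
    · exact one_mem _
    · exact zero_mem _
  | succ n ih =>
    intro j
    rw [pow_succ]
    exact alg_mul i ih hx j

end alg

/-! ### the theorem -/

/-- the element `f0 x^N` of `U N` -/
def mulU {N : ℕ} (f : G.U N) (x : G.Kˣ) : G.U N :=
  ⟨(f : G.Kˣ) * x ^ N, (G.U N).mul_mem f.2 (G.pw_le_U N ⟨x, rfl⟩)⟩

theorem mk_mulU {N : ℕ} (f : G.U N) (x : G.Kˣ) :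
    (QuotientGroup.mk (mulU f x) : G.V N) = QuotientGroup.mk f := by
  rw [eq_comm, QuotientGroup.eq, Subgroup.mem_subgroupOf, G.mem_pw]
  refine ⟨x, ?_⟩
  simp [mulU]

theorem exists_mulU {N : ℕ} {f g : G.U N}
    (h : (QuotientGroup.mk f : G.V N) = QuotientGroup.mk g) : ∃ x : G.Kˣ, g = mulU f x := by
  rw [QuotientGroup.eq, Subgroup.mem_subgroupOf, G.mem_pw] at h
  obtain ⟨x, hx⟩ := h
  refine ⟨x, Subtype.ext ?_⟩
  have h1 : ((f⁻¹ * g : G.U N) : G.Kˣ) = (f : G.Kˣ)⁻¹ * (g : G.Kˣ) := rfl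
  rw [h1] at hx
  change (g : G.Kˣ) = (f : G.Kˣ) * x ^ N
  rw [hx, mul_inv_cancel_left]

/-- **[WV]**: the automorphisms of `ℂ` act on the classes through a number field, and every class
has a representative with algebraic expansion -/
theorem wv (hB : B ≠ 0) {N : ℕ} (hN : 0 < N)
    (hfin : ∀ f0 : G.Kˣ, f0 ∈ G.U N → ∀ m : ℕ,
      FiniteDimensional ℂ (Mm G N m (f0 : G.K) f0.ne_zero))
    (hne : ∀ f0 : G.Kˣ, f0 ∈ G.U N → ∃ m0 : ℕ, ∀ m : ℕ, m0 ≤ m →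
      ∃ x ∈ Mm G N m (f0 : G.K) f0.ne_zero, x ≠ 0)
    (hS : G.SemiStmt) [Finite (G.V N)] [MulAction (ℂ ≃ₐ[ℚ] ℂ) (G.V N)]
    (hact : ∀ (σ : ℂ ≃ₐ[ℚ] ℂ) (f : G.U N), ∃ g : G.U N,
      G.e ((g : G.Kˣ) : G.K) = cm (σ : ℂ ≃+* ℂ) (G.e ((f : G.Kˣ) : G.K)) ∧
        σ • (QuotientGroup.mk f : G.V N) = QuotientGroup.mk g)
    (i : AlgebraicClosure ℚ →ₐ[ℚ] ℂ) :
    ∃ ρ : (AlgebraicClosure ℚ ≃ₐ[ℚ] AlgebraicClosure ℚ) →* Equiv.Perm (G.V N),
      (∀ (σ : ℂ ≃ₐ[ℚ] ℂ) (τ : AlgebraicClosure ℚ ≃ₐ[ℚ] AlgebraicClosure ℚ),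
        (∀ x, σ (i x) = i (τ x)) → ∀ v, ρ τ v = σ • v) ∧
      IsOpen (ρ.ker : Set (AlgebraicClosure ℚ ≃ₐ[ℚ] AlgebraicClosure ℚ)) ∧
      ∀ v : G.V N, ∃ f : G.U N, QuotientGroup.mk f = v ∧
        (∃ y : LS, y ^ N = sb N hN (G.e ((f : G.Kˣ) : G.K)) ∧ ∀ j, y.coeff j ∈ i.range) ∧
        ∃ g : ℤ → AlgebraicClosure ℚ, ∀ j, i (g j) = (G.e ((f : G.Kˣ) : G.K)).coeff j := by
  classical
  let rep : G.V N → G.U N := Quotient.out
  have hrep : ∀ v, (QuotientGroup.mk (rep v) : G.V N) = v := fun v => Quotient.out_eq v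
  choose m0 hm0 using fun v => hne (rep v : G.Kˣ) (rep v).2
  obtain ⟨m, hm⟩ : ∃ m : ℕ, ∀ v, m0 v ≤ m := by
    obtain ⟨m, hm⟩ := (Set.finite_range m0).bddAbove
    exact ⟨m, fun v => hm ⟨v, rfl⟩⟩
  let W : G.V N → Submodule ℂ (ℤ → ℂ) := fun v => Wr hN (rep v : G.Kˣ) m
  have hW : ∀ (v : G.V N) (f : ℤ → ℂ), f ∈ W v ↔ ∃ y : LS, y.coeff = f ∧ (y = 0 ∨
      ∃ g : G.U N, QuotientGroup.mk g = v ∧ y ^ N = sb N hN (G.e ((g : G.Kˣ) : G.K)) ∧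
        Bd G m ((g : G.Kˣ) : G.K)) := by
    intro v f
    change f ∈ Wr hN (rep v : G.Kˣ) m ↔ _
    rw [mem_Wr]
    refine exists_congr fun y => and_congr_right fun _ => or_congr_right ?_
    constructor
    · rintro ⟨x, h1, h2⟩
      exact ⟨mulU (rep v) x, by rw [mk_mulU, hrep], h1, h2⟩
    · rintro ⟨g, h0, h1, h2⟩
      obtain ⟨x, rfl⟩ := exists_mulU ((hrep v).trans h0.symm)
      exact ⟨x, h1, h2⟩
  have hfd : ∀ v, FiniteDimensional ℂ (W v) := fun v =>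
    Wr_finite hN _ m (hfin (rep v : G.Kˣ) (rep v).2 m)
  have h0 : ∀ v, ∃ f ∈ W v, f ≠ 0 := fun v => Wr_ne hN _ (hm0 v m (hm v))
  have hσ : ∀ (σ : ℂ ≃ₐ[ℚ] ℂ) (v : G.V N), ∀ f ∈ W v, (fun i => σ (f i)) ∈ W (σ • v) := by
    intro σ v f hf
    rw [hW] at hf ⊢
    obtain ⟨y, rfl, hy⟩ := hf
    refine ⟨cm (σ : ℂ ≃+* ℂ) y, rfl, ?_⟩
    rcases hy with rfl | ⟨g, rfl, h1, h2⟩
    · left
      rw [map_zero]
    · right
      obtain ⟨g', h3, h4⟩ := hact σ g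
      obtain ⟨φ, hφ⟩ := hS (σ : ℂ ≃+* ℂ)
      have h5 : ((g' : G.Kˣ) : G.K) = φ ((g : G.Kˣ) : G.K) := e_inj G (by rw [h3, hφ])
      refine ⟨g', h4.symm, ?_, ?_⟩
      · rw [← map_pow, h1, cm_sb, h3]
      · rw [h5]
        exact bd_semi G hB _ φ hφ h2
  have hinj : ∀ v v' f, f ∈ W v → f ∈ W v' → f ≠ 0 → v = v' := by
    intro v v' f hf hf' hf0
    rw [hW] at hf hf'
    obtain ⟨y, hy, hy1⟩ := hf
    obtain ⟨y', hy', hy1'⟩ := hf'
    have h1 : y = y' := by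
      ext n
      rw [hy, hy']
    subst h1
    have h2 : y ≠ 0 := by
      rintro rfl
      exact hf0 (by rw [← hy]; rfl)
    obtain ⟨g, rfl, h3, -⟩ := hy1.resolve_left h2
    obtain ⟨g', rfl, h4, -⟩ := hy1'.resolve_left h2
    have h5 : G.e ((g : G.Kˣ) : G.K) = G.e ((g' : G.Kˣ) : G.K) :=
      (sb N hN).injective (h3.symm.trans h4)
    have h6 : g = g' := Subtype.ext (Units.ext (e_inj G h5))
    rw [h6]
  obtain ⟨ρ, h1, h2, h3⟩ := H694.exists_rho_complex i W h0 hσ hinj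
  refine ⟨ρ, h1, h2, fun v => ?_⟩
  obtain ⟨f, hf, hf0, g, hg⟩ := h3 v
  rw [hW] at hf
  obtain ⟨y, hy, hy1⟩ := hf
  have h4 : y ≠ 0 := by
    rintro rfl
    exact hf0 (by rw [← hy]; rfl)
  obtain ⟨u, hu, h5, -⟩ := hy1.resolve_left h4
  have h6 : ∀ j, y.coeff j ∈ i.range := fun j => ⟨g j, by rw [hy]; exact hg j⟩
  refine ⟨u, hu, ⟨y, h5, h6⟩, ?_⟩
  have h7 : ∀ j, (G.e ((u : G.Kˣ) : G.K)).coeff j ∈ i.range := by
    intro j
    rw [← coeff_sb_mul N hN, ← h5]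
    exact alg_pow i h6 N _
  choose c hc using h7
  exact ⟨c, hc⟩

end Vale.Agent.P022.H447.L3
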