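import Vale.Agent.P022.H542.L3.Geo

/-! # P022-L3, rows [FD], [WV]: the spaces of bounded functions in a class modulo `N`-th powers -/

set_option autoImplicit false

noncomputable section

open HahnSeries

namespace Vale.Agent.P022.H447.L3

open Vale.Agent.P022.H542.L3

variable {B : ℕ} (G : Geo B)

/-- `θ` is a cusp of ramification `e` -/
def IsCusp (θ : G.K →ₐ[ℂ] LS) (e : ℕ) : Prop :=
  1 ≤ e ∧ ((∃ s ∈ G.S, θ G.p = C (s : ℂ) + single (e : ℤ) 1) ∨ θ G.p = single (-(e : ℤ)) 1)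

/-- `f` is regular at the affine points and has poles of order at most `m e` at the cusps -/
def Bd (m : ℕ) (f : G.K) : Prop :=
  (∀ a, G.Aff a → ∀ θ ∈ G.Pt a, 0 ≤ (θ f).order) ∧
    ∀ (θ : G.K →ₐ[ℂ] LS) (e : ℕ), IsCusp G θ e → -((m : ℤ) * e) ≤ (θ f).order

theorem algC (c : ℂ) : algebraMap ℂ LS c = C c := by
  rw [HahnSeries.algebraMap_apply', PowerSeries.algebraMap_apply, HahnSeries.ofPowerSeries_C]
  rfl

theorem order_add {x y : LS} (h : x + y ≠ 0) {c : ℤ} (hx : x = 0 ∨ c ≤ x.order)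
    (hy : y = 0 ∨ c ≤ y.order) : c ≤ (x + y).order := by
  rcases hx with rfl | hx
  · rw [zero_add] at h ⊢
    exact hy.resolve_left h
  rcases hy with rfl | hy
  · rw [add_zero]
    exact hx
  exact (le_min hx hy).trans (HahnSeries.min_order_le_order_add h)

theorem order_mul_pow {K : Type} [Field K] [Algebra ℂ K] (θ : K →ₐ[ℂ] LS) {f x : K} (N : ℕ)
    (hf : f ≠ 0) (hx : x ≠ 0) :
    (θ (f * x ^ N)).order = (N : ℤ) * (θ x).order + (θ f).order := by
  have h1 : θ f ≠ 0 := (map_ne_zero θ).2 hf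
  have h2 : θ x ^ N ≠ 0 := pow_ne_zero _ ((map_ne_zero θ).2 hx)
  rw [map_mul, map_pow, HahnSeries.order_mul h1 h2, HahnSeries.order_pow, nsmul_eq_mul]
  ring

/-- `{x | f0 x^N is bounded by m}` -/
def Mm (N m : ℕ) (f0 : G.K) (h0 : f0 ≠ 0) : Submodule ℂ G.K where
  carrier := {x | x = 0 ∨ Bd G m (f0 * x ^ N)}
  zero_mem' := Or.inl rfl
  add_mem' := by
    intro x y hx hy
    by_cases hxy : x + y = 0
    · exact Or.inl hxy
    by_cases hx0 : x = 0
    · rw [hx0, zero_add]; exact hy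
    by_cases hy0 : y = 0
    · rw [hy0, add_zero]; exact hx
    have hx := hx.resolve_left hx0
    have hy := hy.resolve_left hy0
    have key : ∀ (θ : G.K →ₐ[ℂ] LS) (c : ℤ), c ≤ (θ (f0 * x ^ N)).order →
        c ≤ (θ (f0 * y ^ N)).order → c ≤ (θ (f0 * (x + y) ^ N)).order := by
      intro θ c h1 h2
      rw [order_mul_pow θ N h0 hx0] at h1
      rw [order_mul_pow θ N h0 hy0] at h2
      rw [order_mul_pow θ N h0 hxy]
      have h3 : min (θ x).order (θ y).order ≤ (θ (x + y)).order := by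
        have h4 : θ x + θ y ≠ 0 := by
          rw [← map_add]; exact (map_ne_zero θ).2 hxy
        rw [map_add]
        exact HahnSeries.min_order_le_order_add h4
      rcases min_le_iff.1 h3 with h | h
      · have := mul_le_mul_of_nonneg_left h (Int.natCast_nonneg N)
        linarith
      · have := mul_le_mul_of_nonneg_left h (Int.natCast_nonneg N)
        linarith
    exact Or.inr ⟨fun a ha θ hθ => key θ 0 (hx.1 a ha θ hθ) (hy.1 a ha θ hθ),
      fun θ e he => key θ _ (hx.2 θ e he) (hy.2 θ e he)⟩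
  smul_mem' := by
    intro c x hx
    by_cases hc : c = 0
    · subst hc; left; simp
    by_cases hx0 : x = 0
    · left; simp [hx0]
    have hx := hx.resolve_left hx0
    have hcx : c • x ≠ 0 := smul_ne_zero hc hx0
    have key : ∀ (θ : G.K →ₐ[ℂ] LS), (θ (f0 * (c • x) ^ N)).order = (θ (f0 * x ^ N)).order := by
      intro θ
      rw [order_mul_pow θ N h0 hcx, order_mul_pow θ N h0 hx0]
      have h1 : (θ (c • x)).order = (θ x).order := by
        have h2 : (algebraMap ℂ LS c) ≠ 0 := (map_ne_zero _).2 hc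
        have h3 : (algebraMap ℂ LS c).order = 0 := by
          rw [algC]
          exact HahnSeries.order_C
        rw [Algebra.smul_def, map_mul, AlgHom.commutes,
          HahnSeries.order_mul h2 ((map_ne_zero θ).2 hx0), h3, zero_add]
      rw [h1]
    exact Or.inr ⟨fun a ha θ hθ => by rw [key]; exact hx.1 a ha θ hθ,
      fun θ e he => by rw [key]; exact hx.2 θ e he⟩

theorem mem_Mm {N m : ℕ} {f0 : G.K} {h0 : f0 ≠ 0} {x : G.K} :
    x ∈ Mm G N m f0 h0 ↔ x = 0 ∨ Bd G m (f0 * x ^ N) := Iff.rfl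

/-- row [FD] (helper452) -/
def FDStmt : Prop :=
  ∀ (B : ℕ) (G : Geo B) (N : ℕ), 0 < N → ∀ f0 : G.Kˣ, f0 ∈ G.U N →
    (∀ m : ℕ, FiniteDimensional ℂ (Mm G N m (f0 : G.K) f0.ne_zero)) ∧
      ∃ m0 : ℕ, ∀ m : ℕ, m0 ≤ m → Mm G N m (f0 : G.K) f0.ne_zero ≠ ⊥

end Vale.Agent.P022.H447.L3
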